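import Vale.Agent.P014X.Eu.Val

/-! # P014X: the Euler system of elliptic units -/

set_option autoImplicit false
set_option linter.all false

open NumberField QuadraticAlgebra
open scoped Classical

noncomputable section

namespace Vale.Agent.P014X

open P022 (Qb GQ)
open P027M.S (Inert)
open P022E.GW (Ov)
open P004M.TE (Pt ga ga_mul ga_one)

namespace Ev

variable {A B : ℤ} {D : Cd A B} {m m' α β γ π ζ ζ' : D.O} {g g' : GQ} {p : ℕ} {T T' : Pt A B}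

theorem dom (D : Cd A B) : IsDomain D.O := D.inj.isDomain

theorem am (x y : D.O) (T : Pt A B) : D.act x (D.act y T) = D.act (x * y) T := by
  rw [map_mul]; rfl

theorem a1 (T : Pt A B) : D.act 1 T = T := by rw [map_one]; rfl

theorem aa (x y : D.O) (T : Pt A B) : D.act (x + y) T = D.act x T + D.act y T := by
  rw [map_add]; rfl

theorem as (x y : D.O) (T : Pt A B) : D.act (x - y) T = D.act x T - D.act y T := by
  rw [map_sub]; rfl

theorem dvz {n k : ℤ} (h : (n : D.O) ∣ k) : n ∣ k := by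
  obtain ⟨y, e⟩ := h
  exact ⟨y.re, by simpa using congrArg QuadraticAlgebra.re e⟩

theorem p_nu (hp : p.Prime) : ¬ IsUnit (p : D.O) := fun u =>
  (Nat.prime_iff_prime_int.1 hp).not_dvd_one (dvz (D := D) (by simpa using u.dvd))

variable (C : D.Cf)
include C

theorem eqv (m0 : m ≠ 0) : D.act β (D.tp m) = D.act γ (D.tp m) ↔ m ∣ β - γ := by
  rw [← C.ker m m0, as, sub_eq_zero]

theorem ac_dv (m0 : m * m' ≠ 0) (h : D.Ac (m * m') g β) : D.Ac m g β := ⟨h.1, by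
  rw [← C.dv m (left_ne_zero_of_mul m0) m' (right_ne_zero_of_mul m0), C.lin g h.1, h.2, am, am,
    mul_comm]⟩

theorem ac_eq (m0 : m ≠ 0) (h : D.Ac m g β) (h' : D.Ac m g γ) : m ∣ β - γ :=
  (eqv C m0).1 (h.2.symm.trans h'.2)

theorem ac_of (m0 : m ≠ 0) (h : D.Ac m g β) (d : m ∣ β - γ) : D.Ac m g γ :=
  ⟨h.1, h.2.trans ((eqv C m0).2 d)⟩

theorem ac_mul (h : D.Ac m g β) (h' : D.Ac m g' γ) : D.Ac m (g * g') (β * γ) :=
  ⟨mul_mem h.1 h'.1, by rw [ga_mul, h'.2, C.lin g h.1, h.2, am, mul_comm]⟩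

theorem ac_pow (h : D.Ac m g β) (n : ℕ) : D.Ac m (g ^ n) (β ^ n) := by
  induction n with
  | zero => exact ⟨one_mem _, by rw [pow_zero, pow_zero, ga_one, a1]⟩
  | succ n ih => rw [pow_succ, pow_succ]; exact ac_mul C ih h

theorem hm_le (m0 : m * m' ≠ 0) : D.Hm (m * m') ≤ D.Hm m := fun g h =>
  let ⟨ζ, u, a⟩ := (C.hm _ m0 g).1 h
  (C.hm _ (left_ne_zero_of_mul m0) g).2 ⟨ζ, u, ac_dv C m0 a⟩

theorem hm_G (m0 : m ≠ 0) : D.Hm m ≤ D.G := fun g h => let ⟨_, _, a⟩ := (C.hm _ m0 g).1 h; a.1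

theorem hm_op (m0 : m ≠ 0) : IsOpen (D.Hm m : Set GQ) :=
  Subgroup.isOpen_mono (H₁ := D.Hf m) (fun g h => (C.hm m m0 g).2 ⟨1, isUnit_one, h.1, (a1 _).symm ▸ h.2⟩)
    (C.oH m m0)

theorem hm_cj (m0 : m ≠ 0) (k : g ∈ D.G) (h : g' ∈ D.Hm m) : g * g' * g⁻¹ ∈ D.Hm m := by
  obtain ⟨ζ, u, a⟩ := (C.hm _ m0 _).1 h
  obtain ⟨x, -, b⟩ := C.ac m m0 _ (inv_mem k)
  refine (C.hm _ m0 _).2 ⟨ζ, u, mul_mem (mul_mem k a.1) b.1, ?_⟩
  rw [mul_assoc, ga_mul, (ac_mul C a b).2, ← am, ← b.2, C.lin g k, ← ga_mul, mul_inv_cancel, ga_one]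

/-- the units are separated -/
theorem sep (hp : p.Prime) (p2 : p ≠ 2) (u : IsUnit ζ) (u' : IsUnit ζ')
    (d : (p : D.O) ^ 2 ∣ ζ - ζ') : ζ = ζ' := by
  have := dom D
  by_contra n
  have e := (Commute.all ζ ζ').geom_sum₂_mul 12
  rw [C.un ζ u, C.un ζ' u', sub_self, mul_eq_zero, or_iff_left (sub_ne_zero.2 n)] at e
  have f : (p : D.O) ^ 2 ∣ ∑ i ∈ Finset.range 12, (ζ ^ i - ζ' ^ i) * ζ' ^ (12 - 1 - i) :=
    Finset.dvd_sum fun i _ => (d.trans (sub_dvd_pow_sub_pow _ _ _)).mul_right _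
  simp only [sub_mul, Finset.sum_sub_distrib, e, zero_sub, dvd_neg] at f
  rw [Finset.sum_congr rfl (g := fun _ => ζ' ^ 11) fun i k => by
    rw [← pow_add, Nat.add_sub_cancel' (Nat.le_of_lt_succ (Finset.mem_range.1 k))],
    Finset.sum_const, Finset.card_range, nsmul_eq_mul, (u'.pow 11).dvd_mul_right] at f
  have k : p ^ 2 ∣ 12 := Int.natCast_dvd_natCast.1 (dvz (D := D) (by
    simpa only [Int.cast_natCast, Nat.cast_pow, Int.cast_pow] using f))
  have l := Nat.le_of_dvd (by norm_num) k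
  have := hp.two_le
  obtain rfl : p = 3 := by
    have : p < 4 := by nlinarith
    omega
  omega

omit C in
theorem ad_nd (hp : p.Prime) (a : D.Ad p α m) : ¬ m ∣ α := fun d =>
  p_nu hp (isUnit_of_dvd_unit ((dvd_pow_self _ two_ne_zero).trans a.dv)
    (a.cop.of_mul_right_right.symm.isUnit_of_dvd d))

theorem ad_ne (hp : p.Prime) (a : D.Ad p α m) (c : IsCoprime m β) :
    D.act α (D.act β (D.tp m)) ≠ 0 := fun e =>
  ad_nd hp a (c.dvd_of_dvd_mul_right ((C.ker m a.ne _).1 (am α β _ ▸ e)))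

theorem ad_ne1 (hp : p.Prime) (a : D.Ad p α m) : D.act α (D.tp m) ≠ 0 :=
  mt (C.ker m a.ne α).1 (ad_nd hp a)

/-- inertia away from `p` -/
theorem ur (hp : p.Prime) (p2 : p ≠ 2) (m0 : m ≠ 0) (d : (p : D.O) ^ 2 ∣ m) {P : Ideal (𝓞 Qb)}
    (f : D.Fr π P 0 g) (n : ¬ π ∣ p) (k : g ∈ D.Hm m) (r : ℕ) : g ∈ D.Hm (m * p ^ r) := by
  have := dom D
  have := D.pid
  have p0 : (p : D.O) ≠ 0 := fun e => m0 (by simpa [e] using d)
  have m1 := mul_ne_zero m0 (pow_ne_zero r p0)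
  obtain ⟨ζ, u, a⟩ := C.mt π P 0 g f
  obtain ⟨ζ', u', a'⟩ := (C.hm m m0 g).1 k
  obtain ⟨β, -, b⟩ := C.ac _ m1 g f.G
  have c : ∀ {x}, ¬ π ∣ x → IsCoprime x π := fun h => (f.pr.coprime_iff_not_dvd.2 h).symm
  simp only [pow_zero, mul_one] at a
  obtain rfl : ζ = ζ' := by
    obtain ⟨y, rfl⟩ := d
    exact sep C hp p2 u u' (ac_eq C (pow_ne_zero 2 p0) (a _ (pow_ne_zero 2 p0) (c n).pow_left)
      (ac_dv C m0 a'))
  obtain ⟨i, y, ny, rfl⟩ := WfDvdMonoid.max_power_factor m0 f.pr.irreducible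
  have y0 := mul_ne_zero (right_ne_zero_of_mul m0) (pow_ne_zero r p0)
  have c1 := (c ny).mul_left ((c n).pow_left (m := r))
  refine (C.hm _ m1 g).2 ⟨ζ, u, ac_of C m1 b ?_⟩
  rw [mul_assoc]
  exact c1.symm.pow_left.mul_dvd ((dvd_mul_right _ _).trans (ac_eq C m0 (ac_dv C m1 b) a'))
    (ac_eq C y0 (ac_dv C (m' := π ^ i) (by rwa [mul_comm, ← mul_assoc])
      (by rwa [mul_comm, ← mul_assoc])) (a _ y0 c1))

/-- the powers of the Frobenius elements leave the tower -/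
theorem frob (hp : p.Prime) (m0 : m ≠ 0) {P : Ideal (𝓞 Qb)} (f : D.Fr π P 1 g) (n : ¬ π ∣ p)
    {r : ℕ} (r0 : r ≠ 0) : ∃ k : ℕ, g ^ r ∉ D.Hm (m * p ^ k) := by
  have := dom D
  have := D.pid
  by_contra! c
  have p0 : (p : D.O) ≠ 0 := fun e => n (e ▸ dvd_zero _)
  obtain ⟨ζ, u, a⟩ := C.mt π P 1 g f
  have z : ((ζ * π ^ 1) ^ r) ^ 12 - 1 ≠ 0 := fun e => f.pr.not_unit (by
    have := (isUnit_pow_iff r0).1 (IsUnit.of_pow_eq_one (sub_eq_zero.1 e) (by norm_num))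
    simpa using isUnit_of_mul_isUnit_right this)
  obtain ⟨k, e⟩ := FiniteMultiplicity.of_not_isUnit (p_nu hp) z
  have k0 := pow_ne_zero (k + 1) p0
  obtain ⟨ζ', u', a'⟩ := (C.hm _ k0 _).1 (hm_le C (m' := m) (mul_ne_zero k0 m0)
    (mul_comm m _ ▸ c (k + 1)))
  refine e ?_
  rw [← C.un ζ' u']
  exact (ac_eq C k0 (ac_pow C (a _ k0 (f.pr.coprime_iff_not_dvd.2 n).symm.pow_left) r) a').trans
    (sub_dvd_pow_sub_pow _ _ _)

variable (D) in
/-- `g` sends the point of order `m` to its translate by `T`, up to a unit -/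
def Rl (m : D.O) (g : GQ) (T : Pt A B) : Prop :=
  ∃ ζ : D.Oˣ, ga g (D.tp m) = D.act ζ (D.tp m + T)

theorem tb (m0 : m * β ≠ 0) (h : T ∈ D.tor β) : D.act β (D.tp (m * β) + T) = D.tp m := by
  rw [map_add, (C.tr β (right_ne_zero_of_mul m0) T).1 h, add_zero,
    C.dv m (left_ne_zero_of_mul m0) β (right_ne_zero_of_mul m0)]

theorem tp_add (m0 : m * β ≠ 0) (t : D.O) :
    D.tp (m * β) + D.act t (D.tp β) = D.act (1 + t * m) (D.tp (m * β)) := by
  rw [aa, a1, ← am, mul_comm m, C.dv β (right_ne_zero_of_mul m0) m (left_ne_zero_of_mul m0)]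

theorem rl_of (m0 : m * β ≠ 0) {t : D.O} (c : IsCoprime (1 + t * m) β) :
    ∃ g ∈ D.Hm m, Rl D (m * β) g (D.act t (D.tp β)) := by
  obtain ⟨g, ζ, u, a⟩ := C.onto _ m0 (1 + t * m) (.mul_right ⟨1, -t, by ring⟩ c)
  exact ⟨g, (C.hm m (left_ne_zero_of_mul m0) g).2 ⟨ζ, u, ac_of C (left_ne_zero_of_mul m0)
    (ac_dv C m0 a) ⟨ζ * t, by ring⟩⟩, u.unit, by rw [tp_add C m0, am, a.2]; rfl⟩

variable (E : D.Eu)
include E

/-- **the norm as a product over translates** -/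
theorem nrm (hp : p.Prime) (p2 : p ≠ 2) (a : D.Ad p α m) (b0 : β ≠ 0) {J : Type} [Fintype J]
    {s : J → GQ} (t : Tj (D.Hm m) (D.Hm (m * β)) s) : ∏ i, s i (D.un α (m * β)) =
      ∏ T ∈ (D.tor β).filter fun T => ∃ g ∈ D.Hm m, Rl D (m * β) g T,
        D.th α (D.tp (m * β) + T) := by
  have := dom D
  have m0 := mul_ne_zero a.ne b0
  have G := fun i => hm_G C a.ne (t.1 i)
  have c6 := a.cop.of_mul_right_left
  have ne : ∀ T ∈ D.tor β, D.act α (D.tp (m * β) + T) ≠ 0 := fun T k e =>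
    ad_ne1 C hp a (by rw [← tb C m0 k, am, mul_comm α, ← am, e, map_zero])
  have ex : ∀ i, ∃ T ∈ D.tor β, Rl D (m * β) (s i) T := fun i => by
    obtain ⟨_, ⟨ζ, rfl⟩, k⟩ := (C.hm m a.ne _).1 (t.1 i)
    refine ⟨D.act ↑ζ⁻¹ (ga (s i) (D.tp (m * β))) - D.tp (m * β), (C.tr β b0 _).2 ?_, ζ, by
      rw [add_sub_cancel, am, Units.mul_inv, a1]⟩
    rw [map_sub, am, mul_comm β, ← am, ← C.lin _ k.1, C.dv m a.ne β b0, k.2, am, Units.inv_mul, a1,
      sub_self]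
  choose T h1 h2 using ex
  refine Finset.prod_bij (fun i _ => T i) (fun i _ => Finset.mem_filter.2 ⟨h1 i, _, t.1 i, h2 i⟩)
    (fun i _ j _ e => ?_) (fun U k => ?_) fun i _ => ?_
  · obtain ⟨ζ, f⟩ := h2 i
    obtain ⟨ζ', f'⟩ := h2 j
    refine (t.2 _ (t.1 j)).unique ((C.hm _ m0 _).2 ⟨↑(ζ' * ζ⁻¹), Units.isUnit _,
      mul_mem (inv_mem (G i)) (G j), ?_⟩) (by rw [inv_mul_cancel]; exact one_mem _)
    rw [ga_mul, f', ← e, ← Units.inv_mul_cancel_right (ζ' : D.O) ζ, ← am _ (ζ : D.O), ← f, C.lin _ (inv_mem (G i)),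
      ← ga_mul, inv_mul_cancel, ga_one, Units.val_mul]
  · obtain ⟨k, g, hg, ζ, f⟩ := Finset.mem_filter.1 k
    obtain ⟨i, e, -⟩ := t.2 g hg
    obtain ⟨ζ', u, e⟩ := (C.hm _ m0 _).1 e
    obtain ⟨ζ'', f'⟩ := h2 i
    have q := congrArg (ga (s i)) e.2
    rw [← ga_mul, mul_inv_cancel_left, C.lin _ (G i), f, f', am] at q
    have q' := congrArg (D.act β) q
    rw [am, am, mul_comm β, mul_comm β, ← am _ β, ← am _ β, tb C m0 k, tb C m0 (h1 i),
      eqv C a.ne] at q'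
    rw [← sep C hp p2 ζ.isUnit (u.mul ζ''.isUnit) (a.dv.trans q')] at q
    have q'' := congrArg (D.act ↑ζ⁻¹) q
    rw [am, am, Units.inv_mul, a1, a1] at q''
    exact ⟨i, Finset.mem_univ _, (add_left_cancel q'').symm⟩
  · obtain ⟨ζ, f⟩ := h2 i
    rw [Cd.un, E.gal α c6 _ (by simpa using ne 0 ((C.tr β b0 0).2 (map_zero _))) _ (G i), f,
      (E.inv α c6 _ (ne _ (h1 i)) ζ ζ.isUnit).1]

theorem dis (hp : p.Prime) (a : D.Ad p α m) (b0 : β ≠ 0) (c : IsCoprime β α) :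
    ∏ T ∈ D.tor β, D.th α (D.tp (m * β) + T) = D.un α m := by
  rw [(E.th α a.cop.of_mul_right_left).dis β b0 c _
    (by rw [← am, C.dv m a.ne β b0]; exact ad_ne1 C hp a), C.dv m a.ne β b0, Cd.un]

theorem nrm_all (hp : p.Prime) (p2 : p ≠ 2) (a : D.Ad p α m) (b0 : β ≠ 0) (c : IsCoprime β α)
    (c' : ∀ t, IsCoprime (1 + t * m) β) {J : Type} [Fintype J] {s : J → GQ}
    (t : Tj (D.Hm m) (D.Hm (m * β)) s) : ∏ i, s i (D.un α (m * β)) = D.un α m := by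
  have := dom D
  rw [nrm C E hp p2 a b0 t, Finset.filter_true_of_mem, dis C E hp a b0 c]
  intro T k
  obtain ⟨x, rfl⟩ := (C.gen β b0 T).1 k
  exact rl_of C (mul_ne_zero a.ne b0) (c' x)

theorem un_ne (hp : p.Prime) (a : D.Ad p α m) : D.un α m ≠ 0 := by
  obtain ⟨k, k0, e⟩ := (E.th α a.cop.of_mul_right_left).eq
  exact left_ne_zero_of_mul ((e _ (ad_ne1 C hp a)).trans_ne k0)

theorem un_ac (hp : p.Prime) (a : D.Ad p α m) (u : IsUnit ζ) (c : IsCoprime m β)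
    (h : D.Ac m g (ζ * β)) : g (D.un α m) = D.th α (D.act β (D.tp m)) := by
  have c6 := a.cop.of_mul_right_left
  rw [Cd.un, E.gal α c6 _ (ad_ne1 C hp a) g h.1, h.2, ← am,
    (E.inv α c6 _ (ad_ne C hp a c) ζ u).1]

theorem un_fix (hp : p.Prime) (a : D.Ad p α m) (h : g ∈ D.Hm m) : g (D.un α m) = D.un α m := by
  obtain ⟨ζ, u, k⟩ := (C.hm m a.ne g).1 h
  rw [un_ac C E hp a u isCoprime_one_right (by rwa [mul_one]), a1, Cd.un]

theorem odd (hp : p.Prime) (p2 : p ≠ 2) (a' : D.Ad p α (m * π)) (a : D.Ad p α m) (n : ¬ π ∣ m)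
    {P : Ideal (𝓞 Qb)} (f : D.Fr π P 1 g) {J : Type} [Fintype J] {s : J → GQ}
    (t : Tj (D.Hm m) (D.Hm (m * π)) s) :
    (∏ i, s i (D.un α (m * π))) * g⁻¹ (D.un α m) = D.un α m := by
  have := dom D
  have := D.pid
  have b0 := f.pr.ne_zero
  have c := f.pr.coprime_iff_not_dvd.2 n
  obtain ⟨x, y, e⟩ := c
  have e' : 1 + -y * m = x * π := by linear_combination -e
  have q : D.tp (m * π) + D.act (-y) (D.tp π) = D.act x (D.tp m) := by
    rw [tp_add C a'.ne, e', ← am, C.dv m a.ne π b0]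
  have c1 : IsCoprime m x := ⟨y, π, by linear_combination e⟩
  have mem := (C.gen π b0 _).2 ⟨-y, rfl⟩
  obtain ⟨ζ, u, k⟩ := C.mt π P 1 g f
  replace k := k m a.ne ⟨y, x, by linear_combination e⟩
  have w : g (D.th α (D.act x (D.tp m))) = D.un α m := by
    have c6 := a.cop.of_mul_right_left
    rw [E.gal α c6 _ (ad_ne C hp a c1) g f.G, C.lin g f.G, k.2, am,
      (eqv C a.ne (γ := ζ)).2 ⟨-y * ζ, by linear_combination ζ * e⟩,
      (E.inv α c6 _ (ad_ne1 C hp a) ζ u).1, Cd.un]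
  rw [nrm C E hp p2 a b0 t, show g⁻¹ (D.un α m) = _ from w ▸ g.symm_apply_apply _, ← q,
    ← dis C E hp a b0 a'.cop.of_mul_right_right.of_mul_right_right.symm,
    ← Finset.prod_erase_mul _ _ mem]
  congr 2
  ext T
  rw [Finset.mem_filter, Finset.mem_erase, and_comm]
  refine and_congr_left fun l => ⟨?_, fun l' => ?_⟩
  · rintro ⟨g, hg, ζ, r⟩ rfl
    obtain ⟨β, c, b⟩ := C.ac _ a'.ne g (hm_G C a.ne hg)
    rw [tp_add C a'.ne, am, b.2, eqv C a'.ne, e'] at r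
    exact f.pr.not_unit (c.of_mul_right_right.symm.isUnit_of_dvd (by
      simpa using ((dvd_mul_left π m).trans r).add ((dvd_mul_left π x).mul_left ζ)))
  · obtain ⟨z, rfl⟩ := (C.gen π b0 T).1 l
    refine rl_of C a'.ne (f.pr.coprime_iff_not_dvd.2 fun d => l' ((eqv C b0).2 ?_)).symm
    refine (f.pr.dvd_or_dvd (b := m) ?_).resolve_right n
    rw [show (z - -y) * m = 1 + z * m - x * π by linear_combination e]
    exact d.sub (dvd_mul_left _ _)

theorem unit (hp : p.Prime) (p2 : p ≠ 2) (a : D.Ad p α m) {l : ℕ} {P : Ideal (𝓞 Qb)} (o : Ov l P)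
    (n : l ≠ p) : Cd.Uo P (D.un α m) := by
  have := dom D
  have := Fact.mk hp
  obtain ⟨π, pr, mem, -⟩ := C.bel l P o
  obtain ⟨φ, f⟩ := C.fr π pr P o.2.1 mem
  have np : ¬ π ∣ p := fun ⟨y, e⟩ => P022K.G2.p_notMem o n (by
    rw [← map_natCast D.j, e, map_mul]
    exact P.mul_mem_right _ mem)
  have p0 : (p : D.O) ≠ 0 := fun e => np (e ▸ dvd_zero _)
  have pm := (dvd_pow_self _ two_ne_zero).trans a.dv
  have op := hm_op C a.ne
  have := (D.Hm m).quotient_finite_of_isOpen op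
  obtain ⟨e, e0, -, he⟩ := (D.Hm m).exists_pow_mem_of_index_ne_zero (D.Hm m).index_ne_zero_of_finite φ
  have fd : φ ∈ P022D.W.dec P := P022.H916.mem_of_frob o.2.1 (pow_ne_zero 1 fun z => pr.ne_zero (by
    have := algebraMap_norm_eq_mul_star π
    rw [Int.natAbs_eq_zero.1 z, map_zero, eq_comm, mul_eq_zero, star_eq_zero, or_self] at this
    exact this)) f.eq
  refine unit_of o op (un_ne C E hp a) (fun g => un_fix C E hp a) he (pow_mem fd e) fun r r0 => ?_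
  obtain ⟨k, h⟩ := frob C hp a.ne f np (mul_ne_zero e0.ne' r0)
  have k0 := pow_ne_zero k p0
  have m0 := mul_ne_zero a.ne k0
  have c := (a.cop.of_mul_right_right.of_isCoprime_of_dvd_right pm).pow_right (n := k)
  exact ⟨D.Hm (m * p ^ k), D.un α (m * p ^ k), hm_op C m0, hm_le C m0,
    fun g b u => hm_cj C m0 (hm_G C a.ne b), fun i b c => ur C hp p2 a.ne a.dv
      ⟨pr, o.2.1, mem, hm_G C a.ne b, fun x => by simpa using c x⟩ np b k, pow_mul φ e r ▸ h,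
    fun g => un_fix C E hp ⟨m0, a.dv.mul_right _, mul_assoc 6 m _ ▸ a.cop.mul_right c⟩,
    fun J _ s t => nrm_all C E hp p2 a k0 c.symm (fun t => .pow_right
      (.of_isCoprime_of_dvd_right (y := m) ⟨1, -t, by ring⟩ pm)) t⟩

end Ev

open Ev

theorem es : ES := fun A B D p hp p2 C E =>
  { ne := fun _ _ a => un_ne C E hp a
    fix := fun _ _ a _ => un_fix C E hp a
    two := fun α m π T a' a pr d t => (Finset.prod_coe_sort T fun s => s (D.un α (m * π))) ▸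
      nrm_all C E hp p2 a pr.ne_zero a'.cop.of_mul_right_right.of_mul_right_right.symm
        (fun t => .of_isCoprime_of_dvd_right (y := m) ⟨1, -t, by ring⟩ d) (tj t)
    odd := fun α m π T P φ a' a n f t => (Finset.prod_coe_sort T fun s => s (D.un α (m * π))) ▸
      odd C E hp p2 a' a n f (tj t)
    smo := fun α α' m g g' ζ ζ' a a' u u' k k' => by
      rw [un_ac C E hp a u' a'.cop.of_mul_right_right.symm k',
        un_ac C E hp a' u a.cop.of_mul_right_right.symm k]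
      exact E.smo α α' a.cop.of_mul_right_left a'.cop.of_mul_right_left _
        (am α α' _ ▸ ad_ne C hp a a'.cop.of_mul_right_right.symm)
    cj := fun α m a => by
      have c6 := a.cop.of_mul_right_left
      have c6' : IsCoprime (star α) 6 := by
        simpa only [map_ofNat, starRingEnd_apply] using c6.map (starRingEnd D.O)
      have m0 : star m ≠ 0 := star_ne_zero.2 a.ne
      rw [Cd.un, E.cj α c6 _ (ad_ne1 C hp a) _ ((C.cG _).2 (C.c2 ▸ one_mem _)), C.ctp m a.ne,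
        (E.inv _ c6' _ (mt (C.ker _ m0 _).1 fun d => ad_nd hp a (by
          simpa [starRingEnd_apply] using map_dvd (starRingEnd D.O) d)) _ C.eu).1, Cd.un]
    unit := fun _ _ a _ _ => unit C E hp p2 a }

end Vale.Agent.P014X
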