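import Vale.Agent.P014X.Eu.Fa

/-! # P014X: row EU (helper27) -/

set_option autoImplicit false
set_option linter.all false

open NumberField QuadraticAlgebra
open scoped Classical

noncomputable section

namespace Vale.Agent.P014X

namespace Eu

open Vale.Agent.P022 (Qb GQ)
open P027H P027M.M
open P004M.TE (Pt ga ga_mul ga_one ga_some)

variable {A B : ℤ} {D : Cd A B} {Q T : Pt A B} {α β γ μ : D.O} {Θ Φ Ψ : Pt A B → Qb}

theorem nn (C : D.Cf) (h : β ≠ 0) (h' : γ ≠ 0) : ∃ u : Pt A B → Pt A B,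
    (∀ T ∈ D.tor β, D.act γ (u T) = T) ∧ ∀ {M : Type} [CommMonoid M] (φ : Pt A B → M),
      ∏ U ∈ D.tor (β * γ), φ U = ∏ T ∈ D.tor β, ∏ S ∈ D.tor γ, φ (u T + S) := by
  have : ∀ T, ∃ U, T ∈ D.tor β → D.act γ U = T := fun T => by
    by_cases m : T ∈ D.tor β
    · obtain ⟨x, rfl⟩ := (C.gen β h T).1 m
      exact ⟨D.act x (D.tp (β * γ)), fun _ => by rw [act_comm, C.dv β h γ h']⟩
    · exact ⟨0, fun n => (m n).elim⟩
  choose u hu using this
  have t := C.tr _ (mul_ne h h')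
  refine ⟨u, hu, fun φ => ?_⟩
  rw [← Finset.prod_fiberwise_of_maps_to (g := D.act γ) (t := D.tor β)
    fun U m => (C.tr β h _).2 (by rw [← act_mul, (t U).1 m])]
  refine Finset.prod_congr rfl fun T m => Finset.prod_nbij' (fun U => U - u T) (fun S => u T + S)
    (fun U n => ?_) (fun S n => ?_) (fun U _ => by simp) (fun S _ => by simp) fun U _ => by simp
  · rw [C.tr γ h', map_sub, hu T m, (Finset.mem_filter.1 n).2, sub_self]
  · have e : D.act γ (u T + S) = T := by rw [map_add, hu T m, (C.tr γ h' S).1 n, add_zero]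
    exact Finset.mem_filter.2 ⟨(t _).2 (by rw [act_mul, e, (C.tr β h T).1 m]), e⟩

variable (D) in
/-- the constant of the norm -/
def Nc (α β : D.O) (c : Qb) : Prop := ∀ Q, D.act (α * β) Q ≠ 0 →
  ∏ T ∈ D.tor β, fq D α (Q + T) = c * fq D α (D.act β Q)

theorem nc2 (C : D.Cf) (h : β ≠ 0) (h' : γ ≠ 0) {c c' : Qb} (n : Nc D α β c) (n' : Nc D α γ c') :
    Nc D α (β * γ) (c' ^ D.nm β * c) := fun Q q => by
  obtain ⟨u, hu, e⟩ := nn C h h'
  have q' : D.act (α * β) (D.act γ Q) ≠ 0 := by rwa [← act_mul, mul_assoc]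
  rw [e, act_mul, mul_assoc, ← n _ q', ← C.crd β h, ← Finset.prod_const, ← Finset.prod_mul_distrib]
  refine Finset.prod_congr rfl fun T m => ?_
  have a : D.act γ (Q + u T) = D.act γ Q + T := by rw [map_add, hu T m]
  simp only [← add_assoc]
  rw [n' _ (by rw [act_mul, a]; exact ne_add C h m q'), a]

theorem rel (C : D.Cf) (h0 : α ≠ 0) (h : β ≠ 0) (h' : γ ≠ 0) {c c' : Qb} (n : Nc D α β c)
    (n' : Nc D α γ c') : c' ^ D.nm β * c = c ^ D.nm γ * c' := by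
  obtain ⟨Q, q⟩ := ex_pt C (mul_ne h0 (mul_ne h h'))
  have a := nc2 C h' h n' n
  rw [mul_comm γ] at a
  exact mul_right_cancel₀ (fq_ne C h0 (by rwa [← act_mul])) ((nc2 C h h' n n' Q q).symm.trans (a Q q))

theorem nm_nat (n : ℕ) : D.nm n = n ^ 2 := by
  rw [Cd.nm, QuadraticAlgebra.norm_natCast]
  simp

theorem nm2 : D.nm 2 = 4 := nm_nat 2

theorem nm3 : D.nm 3 = 9 := nm_nat 3

theorem three_ne : (3 : D.O) ≠ 0 := fun e => by
  simpa using (map_ofNat (Jh D) 3).symm.trans ((congrArg (Jh D) e).trans (map_zero _))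

theorem cop2 (h : IsCoprime α 6) : IsCoprime α 2 :=
  IsCoprime.of_mul_right_left (z := 3) (by rwa [show (2 : D.O) * 3 = 6 by norm_num])

theorem cop3 (h : IsCoprime α 6) : IsCoprime α 3 :=
  IsCoprime.of_mul_right_right (y := 2) (by rwa [show (2 : D.O) * 3 = 6 by norm_num])

theorem ne6 (h : IsCoprime α 6) : α ≠ 0 := by
  rintro rfl
  obtain ⟨x, e⟩ := (isCoprime_zero_left.1 (cop2 h)).exists_right_inv
  have := congrArg QuadraticAlgebra.re e
  rw [two_mul] at this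
  simp at this
  omega

theorem eq38 {x y : Qb} (h0 : y ≠ 0) (h3 : x ^ 3 = y ^ 3) (h8 : x ^ 8 = y ^ 8) : x = y :=
  mul_right_cancel₀ (pow_ne_zero 8 h0) (by
    linear_combination (x ^ 6 + x ^ 3 * y ^ 3 + y ^ 6) * h3 - x * h8)

theorem ex_th (C : D.Cf) (h : IsCoprime α 6) : ∃ Θ, D.Th α Θ := by
  have h0 := ne6 h
  obtain ⟨a, a0, na⟩ := nrm C h0 (cop2 h) two_ne (cop2 h)
  obtain ⟨b, b0, nb⟩ := nrm C h0 (cop2 h) three_ne (cop3 h)
  have r := rel C h0 two_ne three_ne na nb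
  rw [nm2, nm3] at r
  have r' : b ^ 3 = a ^ 8 := mul_right_cancel₀ (mul_ne_zero a0 b0) (by linear_combination r)
  have k0 : a ^ 3 / b ≠ 0 := div_ne_zero (pow_ne_zero _ a0) b0
  have k3 : (a ^ 3 / b) ^ 3 = a := by
    rw [div_pow, r']
    field_simp
  have k8 : (a ^ 3 / b) ^ 8 = b := by
    rw [div_pow, ← pow_mul, show 3 * 8 = 8 * 3 from rfl, pow_mul, ← r']
    field_simp
  generalize a ^ 3 / b = k at k0 k3 k8
  refine ⟨fun Q => k / fq D α Q, ⟨k, k0, fun Q q => div_mul_cancel₀ _ (fq_ne C h0 q)⟩,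
    fun β h' k' Q q => ?_⟩
  obtain ⟨c, c0, nc⟩ := nrm C h0 (cop2 h) h' k'.symm
  have r2 := rel C h0 h' two_ne nc na
  have r3 := rel C h0 h' three_ne nc nb
  rw [nm2] at r2
  rw [nm3] at r3
  have : k ^ D.nm β = c * k := eq38 (mul_ne_zero c0 k0)
    (by rw [pow_right_comm, mul_pow, k3]; exact mul_right_cancel₀ c0 (by linear_combination r2))
    (by rw [pow_right_comm, mul_pow, k8]; exact mul_right_cancel₀ c0 (by linear_combination r3))
  rw [Finset.prod_div_distrib, nc Q q, Finset.prod_const, C.crd β h', this, mul_div_mul_left _ _ c0]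

theorem th_th (C : D.Cf) (h : IsCoprime α 6) : D.Th α (D.th α) := Classical.epsilon_spec (ex_th C h)

variable (D) in
/-- fixed by the norms `2` and `3` -/
def Dis (μ : D.O) (Φ : Pt A B → Qb) : Prop := ∀ β : D.O, β = 2 ∨ β = 3 → ∀ Q,
  D.act (μ * β) Q ≠ 0 → ∏ T ∈ D.tor β, Φ (Q + T) = Φ (D.act β Q)

theorem ne23 (h : β = 2 ∨ β = 3) : β ≠ 0 := h.elim (· ▸ two_ne) (· ▸ three_ne)

theorem cop23 (k : IsCoprime α 6) (h : β = 2 ∨ β = 3) : IsCoprime α β :=
  h.elim (· ▸ cop2 k) (· ▸ cop3 k)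

theorem uniq (C : D.Cf) (h : μ ≠ 0) (a : Dis D μ Φ) (b : Dis D μ Ψ) {κ : Qb} (k0 : κ ≠ 0)
    (e : ∀ Q, D.act μ Q ≠ 0 → Ψ Q ≠ 0 ∧ Φ Q = κ * Ψ Q) : κ = 1 := by
  have t : ∀ β : D.O, β = 2 ∨ β = 3 → κ ^ D.nm β = κ := fun β m => by
    obtain ⟨Q, q⟩ := ex_pt C (mul_ne h (ne23 m))
    obtain ⟨n, s⟩ := e (D.act β Q) (by rwa [← act_mul])
    refine mul_right_cancel₀ n ?_
    rw [← s, ← a β m Q q, ← b β m Q q, ← C.crd β (ne23 m), ← Finset.prod_const,
      ← Finset.prod_mul_distrib]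
    exact Finset.prod_congr rfl fun T t => (e _ (ne_add C (ne23 m) t q)).2.symm
  have t2 := t 2 (.inl rfl)
  have t3 := t 3 (.inr rfl)
  rw [nm2] at t2
  rw [nm3] at t3
  exact eq38 one_ne_zero (mul_right_cancel₀ k0 (by linear_combination t2))
    (mul_right_cancel₀ k0 (by linear_combination t3))

theorem dis_of (k : IsCoprime α 6) (t : D.Th α Θ) : Dis D α Θ :=
  fun β m => t.dis β (ne23 m) (cop23 k m).symm

theorem th_ne (t : D.Th α Θ) (q : D.act α Q ≠ 0) : Θ Q ≠ 0 := by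
  obtain ⟨k, k0, e⟩ := t.eq
  exact left_ne_zero_of_mul (e Q q ▸ k0)

/-- uniqueness -/
theorem th_uniq (C : D.Cf) (h : IsCoprime α 6) (t : D.Th α Φ) (t' : D.Th α Ψ) (q : D.act α Q ≠ 0) :
    Φ Q = Ψ Q := by
  obtain ⟨k, k0, e⟩ := t.eq
  obtain ⟨k', k0', e'⟩ := t'.eq
  have a : ∀ Q, D.act α Q ≠ 0 → Ψ Q ≠ 0 ∧ Φ Q = k / k' * Ψ Q := fun Q q => ⟨th_ne t' q, by
    refine mul_right_cancel₀ (fq_ne C (ne6 h) q) ((e Q q).trans ?_)
    rw [mul_assoc, fq, e' Q q, div_mul_cancel₀ _ k0']⟩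
  rw [(a Q q).2, uniq C (ne6 h) (dis_of h t) (dis_of h t') (div_ne_zero k0 k0') a, one_mul]

theorem xc_ga (g : GQ) (Q : Pt A B) : xc (ga g Q) = g (xc Q) := by
  rcases Q with _ | ⟨x, y, h⟩
  · exact (congrArg xc (map_zero (ga g))).trans (map_zero g).symm
  · rw [ga_some]
    rfl

theorem ga_inj (g : GQ) : Function.Injective (ga g : Pt A B → Pt A B) := fun P Q e => by
  rw [← ga_one P, ← inv_mul_cancel g, ga_mul, e, ← ga_mul, inv_mul_cancel, ga_one]

theorem ga_tor (C : D.Cf) {g : GQ} {s : D.O ≃+* D.O}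
    (e : ∀ x T, ga g (D.act x T) = D.act (s x) (ga g T)) (h : β ≠ 0) :
    Set.BijOn (ga g : Pt A B → Pt A B) (D.tor β) (D.tor (s β)) := by
  have h' := (map_ne_zero_iff s s.injective).2 h
  have m : ∀ T, ga g T ∈ D.tor (s β) ↔ T ∈ D.tor β := fun T => by
    rw [C.tr _ h', C.tr _ h, ← e, map_eq_zero_iff _ (ga_inj g)]
  refine ⟨fun T n => (m T).2 n, (ga_inj g).injOn, fun T n => ?_⟩
  have a : ga g (ga g⁻¹ T) = T := by rw [← ga_mul, mul_inv_cancel, ga_one]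
  exact ⟨_, (m _).1 (a.symm ▸ n), a⟩

theorem gal (C : D.Cf) {g : GQ} {s : D.O ≃+* D.O}
    (e : ∀ x T, ga g (D.act x T) = D.act (s x) (ga g T)) (h : IsCoprime α 6) (q : D.act α Q ≠ 0) :
    g (D.th α Q) = D.th (s α) (ga g Q) := by
  have t := th_th C (α := s α) (map_ofNat s 6 ▸ h.map (s : D.O →+* D.O))
  have n : ∀ {x Q}, D.act x Q ≠ 0 → D.act (s x) (ga g Q) ≠ 0 := fun q => by
    rwa [← e, map_ne_zero_iff _ (ga_inj g)]
  rw [th_uniq C h (th_th C h) (Ψ := fun Q => g.symm (D.th (s α) (ga g Q))) ⟨?_, ?_⟩ q,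
    g.apply_symm_apply]
  · obtain ⟨k, k0, a⟩ := t.eq
    refine ⟨g.symm k, (map_ne_zero _).2 k0, fun Q q => g.injective ?_⟩
    have b := ga_tor C e (ne6 h)
    rw [map_mul, g.apply_symm_apply, g.apply_symm_apply, ← a _ (n q), map_prod]
    refine congrArg _ (Finset.prod_nbij (ga g) (fun T m => ?_) (ga_inj g).injOn (fun T m => ?_)
      fun T _ => by rw [map_sub, xc_ga, xc_ga])
    · rw [Finset.mem_erase] at m ⊢
      exact ⟨(map_ne_zero_iff _ (ga_inj g)).2 m.1, b.1 m.2⟩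
    · obtain ⟨m, m'⟩ := Finset.mem_erase.1 m
      obtain ⟨S, c, rfl⟩ := b.2.2 m'
      exact ⟨S, Finset.mem_erase.2 ⟨(map_ne_zero_iff _ (ga_inj g)).1 m, c⟩, rfl⟩
  · intro β h' k Q q
    have b := ga_tor C e h'
    rw [← map_prod, e, ← t.dis (s β) ((map_ne_zero_iff s s.injective).2 h')
      (k.map (s : D.O →+* D.O)) _ (by rw [← map_mul]; exact n q)]
    exact congrArg _ (Finset.prod_nbij _ b.1 b.2.1 b.2.2 fun T _ => by rw [map_add])

theorem dis_mul (C : D.Cf) (h : IsCoprime α 6) (h' : IsCoprime β 6) (n : ℕ) :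
    Dis D (α * β) fun Q => D.th α (D.act β Q) * D.th β Q ^ n := fun γ m Q q => by
  simp only [Finset.prod_mul_distrib, Finset.prod_pow, map_add]
  rw [prod_perm C (ne23 m) (cop23 h' m) fun T => D.th α (D.act β Q + T),
    dis_of h (th_th C h) γ m _ (by rwa [← act_mul, mul_right_comm]),
    dis_of h' (th_th C h') γ m _ (ne_r (α := α) (by rwa [← mul_assoc])), act_comm]

theorem smo (C : D.Cf) (h : IsCoprime α 6) (h' : IsCoprime β 6) (q : D.act (α * β) Q ≠ 0) :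
    D.th α (D.act β Q) * D.th β Q ^ D.nm α = D.th β (D.act α Q) * D.th α Q ^ D.nm β := by
  obtain ⟨c, c0, e⟩ := smc C (ne6 h) (cop2 h) (ne6 h') (cop2 h')
  have t := th_th C h
  have t' := th_th C h'
  obtain ⟨k, k0, a⟩ := t.eq
  obtain ⟨k', k0', a'⟩ := t'.eq
  have w : c * (k' * k ^ D.nm β) ≠ 0 := mul_ne_zero c0 (mul_ne_zero k0' (pow_ne_zero _ k0))
  have b : ∀ Q, D.act (α * β) Q ≠ 0 → D.th β (D.act α Q) * D.th α Q ^ D.nm β ≠ 0 ∧
      D.th α (D.act β Q) * D.th β Q ^ D.nm α = k * k' ^ D.nm α / (c * (k' * k ^ D.nm β)) *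
        (D.th β (D.act α Q) * D.th α Q ^ D.nm β) := fun Q q => by
    have q1 : D.act α (D.act β Q) ≠ 0 := by rwa [← act_mul]
    have q2 : D.act β (D.act α Q) ≠ 0 := by rwa [act_comm]
    refine ⟨mul_ne_zero (th_ne t' q2) (pow_ne_zero _ (th_ne t (ne_l q))), ?_⟩
    rw [div_mul_eq_mul_div, eq_div_iff w]
    conv_lhs => rw [← a' _ q2, ← a _ (ne_l q)]
    conv_rhs => rw [← a _ q1, ← a' _ (ne_r q)]
    have := e Q q
    simp only [fq] at this
    rw [mul_pow, mul_pow]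
    linear_combination (-(D.th α (D.act β Q) * D.th β Q ^ D.nm α *
      (D.th β (D.act α Q) * D.th α Q ^ D.nm β))) * this
  rw [(b Q q).2, uniq C (mul_ne (ne6 h) (ne6 h')) (dis_mul C h h' _) (mul_comm β α ▸ dis_mul C h' h _)
    (div_ne_zero (mul_ne_zero k0 (pow_ne_zero _ k0')) w) b, one_mul]

theorem unit_zero (u : IsUnit β) : D.act β Q = 0 ↔ Q = 0 := by
  obtain ⟨x, e⟩ := u.exists_left_inv
  exact ⟨fun k => by rw [← act_one D Q, ← e, act_mul, k, map_zero], fun k => by rw [k, map_zero]⟩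

theorem th_unit (C : D.Cf) (u : IsUnit β) (q : Q ≠ 0) : D.th β Q = 1 := by
  have h : IsCoprime β 6 := by
    obtain ⟨x, e⟩ := u.exists_left_inv
    exact ⟨x, 0, by rw [e, zero_mul, add_zero]⟩
  refine th_uniq C h (th_th C h) (Ψ := fun _ => 1) ⟨⟨1, one_ne_zero, fun Q _ => ?_⟩,
    fun _ _ _ _ _ => Finset.prod_const_one⟩ (mt (unit_zero u).1 q)
  rw [one_mul]
  refine Finset.prod_eq_one fun T m => ?_
  obtain ⟨n, m⟩ := Finset.mem_erase.1 m
  exact (n ((unit_zero u).1 ((C.tr β (ne6 h) T).1 m))).elim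

theorem nm_unit (u : IsUnit β) : D.nm β = 1 := Int.isUnit_iff_natAbs_eq.1 (u.map QuadraticAlgebra.norm)

theorem inv (C : D.Cf) (h : IsCoprime α 6) (q : D.act α Q ≠ 0) (u : IsUnit β) :
    D.th α (D.act β Q) = D.th α Q ∧ D.th (β * α) Q = D.th α Q := by
  have e : ∀ Q, D.act (β * α) Q = 0 ↔ D.act α Q = 0 := fun Q => by rw [act_mul, unit_zero u]
  have h' : IsCoprime β 6 := by
    obtain ⟨x, e⟩ := u.exists_left_inv
    exact ⟨x, 0, by rw [e, zero_mul, add_zero]⟩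
  refine ⟨?_, ?_⟩
  · have := smo C h h' (Q := Q) (by rw [mul_comm]; exact mt (e Q).1 q)
    rwa [th_unit C u (ne_0 q), th_unit C u q, nm_unit u, one_pow, pow_one, mul_one, one_mul] at this
  · have t := th_th C (h'.mul_left h)
    have r : D.tor (β * α) = D.tor α := Finset.ext fun T => by
      rw [C.tr _ (ne6 (h'.mul_left h)), C.tr _ (ne6 h), e]
    refine th_uniq C h ⟨?_, fun γ n k Q q => t.dis γ n ?_ Q ?_⟩ (th_th C h) q
    · obtain ⟨k, k0, a⟩ := t.eq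
      exact ⟨k, k0, fun Q q => r ▸ a Q (mt (e Q).1 q)⟩
    · exact (isCoprime_mul_unit_left_right u _ _).2 k
    · rwa [mul_assoc, act_mul, Ne, unit_zero u]

end Eu

theorem eu : EU := fun _ _ D C =>
  ⟨fun _ h => Eu.th_th C h,
    fun _ h _ q g m => Eu.gal C (s := RingEquiv.refl _) (C.lin g m) h q,
    fun _ h _ q g m => Eu.gal C (s := starRingAut) (C.sem g m) h q,
    fun _ h _ q _ u => Eu.inv C h q u, fun _ _ h h' _ q => Eu.smo C h h' q⟩

end Vale.Agent.P014X
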