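import Vale.Agent.P027H.Wp

/-! # P014X: elliptic functions with the same divisor (helper27) -/

set_option autoImplicit false
set_option linter.all false

open Filter Topology
open scoped Classical

noncomputable section

namespace Vale.Agent.P014X.Eu

open P027H

/-- `f` is an elliptic function with divisor `d` -/
structure El (Λ : Submodule ℤ ℂ) (f : ℂ → ℂ) (d : ℂ → ℤ) : Prop where
  me : ∀ z, MeromorphicAt f z
  od : ∀ z, meromorphicOrderAt f z = d z
  pe : ∀ l ∈ Λ, ∀ z, f (z + l) = f z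

variable {Λ : Submodule ℤ ℂ} {f g : ℂ → ℂ} {d e : ℂ → ℤ}

theorem El.congr (h : El Λ f d) (k : ∀ z, d z = e z) : El Λ f e := funext k ▸ h

theorem El.mul (h : El Λ f d) (k : El Λ g e) : El Λ (fun z => f z * g z) fun z => d z + e z :=
  ⟨fun z => (h.me z).mul (k.me z), fun z => by
    rw [WithTop.coe_add, ← h.od, ← k.od]
    exact meromorphicOrderAt_mul (h.me z) (k.me z), fun l m z => by rw [h.pe l m, k.pe l m]⟩

theorem el_one : El Λ (fun _ => 1) fun _ => 0 :=
  ⟨fun z => MeromorphicAt.const 1 z, fun z => by simp [meromorphicOrderAt_const], fun _ _ _ => rfl⟩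

theorem El.prod {ι : Type} (s : Finset ι) {f : ι → ℂ → ℂ} {d : ι → ℂ → ℤ}
    (h : ∀ i ∈ s, El Λ (f i) (d i)) : El Λ (fun z => ∏ i ∈ s, f i z) fun z => ∑ i ∈ s, d i z := by
  induction s using Finset.induction_on with
  | empty => simpa using el_one
  | insert a s n k =>
    simp only [Finset.prod_insert n, Finset.sum_insert n]
    exact (h a (by simp)).mul (k fun i m => h i (by simp [m]))

theorem El.pow (h : El Λ f d) (n : ℕ) : El Λ (fun z => f z ^ n) fun z => n * d z := by
  simpa using El.prod (Finset.range n) (f := fun _ => f) (d := fun _ => d) fun _ _ => h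

theorem El.aff (h : El Λ f d) {c : ℂ} (hc : c ≠ 0) (k : ∀ l ∈ Λ, c * l ∈ Λ) (t : ℂ) :
    El Λ (fun z => f (c * z + t)) fun z => d (c * z + t) := by
  have a : ∀ z, AnalyticAt ℂ (fun z => c * z + t) z := fun z => by fun_prop
  refine ⟨fun z => (h.me _).comp_analyticAt (a z), fun z => ?_, fun l m z => ?_⟩
  · rw [← h.od]
    exact meromorphicOrderAt_comp_of_deriv_ne_zero (f := f) (a z) (by simpa using hc)
  · rw [← h.pe _ (k l m) (c * z + t)]
    congr 1
    ring

/-- Liouville -/
theorem El.liou (L : IsLat Λ) (h : El Λ f d) (k : El Λ g d) :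
    ∃ c ≠ 0, ∀ z, ContinuousAt f z → ContinuousAt g z → f z = c * g z := by
  obtain ⟨P, rfl⟩ := L
  have m : MeromorphicOn (f / g) Set.univ := fun z _ => (h.me z).div (k.me z)
  set H := toMeromorphicNFOn (f / g) Set.univ with hH
  have e : ∀ z, H =ᶠ[𝓝[≠] z] f / g := fun z => m.toMeromorphicNFOn_eq_self_on_nhdsNE (Set.mem_univ z)
  have n : ∀ z, MeromorphicNFAt H z := fun z => meromorphicNFOn_toMeromorphicNFOn _ _ (Set.mem_univ z)
  have o : ∀ z, meromorphicOrderAt H z = 0 := fun z => by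
    rw [meromorphicOrderAt_congr (e z), meromorphicOrderAt_div (h.me z) (k.me z), h.od, k.od]
    simp
  have a : Differentiable ℂ H := fun z =>
    ((n z).meromorphicOrderAt_nonneg_iff_analyticAt.1 (o z).ge).differentiableAt
  have p : ∀ z, ∀ l ∈ P.lattice, H (z + l) = H z := fun z l hl => by
    have t : Tendsto (fun w => w + l) (𝓝[≠] z) (𝓝[≠] (z + l)) :=
      tendsto_nhdsWithin_iff.2 ⟨((continuous_add_const l).tendsto z).mono_left nhdsWithin_le_nhds,
        eventually_mem_nhdsWithin.mono fun w hw => by simpa using hw⟩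
    refine tendsto_nhds_unique_of_eventuallyEq (l := 𝓝[≠] z) (f := fun w => H (w + l)) (g := H)
      (((a.continuous.comp (continuous_add_const l)).tendsto z).mono_left nhdsWithin_le_nhds)
      ((a.continuous.tendsto z).mono_left nhdsWithin_le_nhds) ?_
    filter_upwards [t.eventually (e (z + l)), e z] with w b c
    rw [b, c, Pi.div_apply, Pi.div_apply, h.pe l hl, k.pe l hl]
  have c := a.apply_eq_apply_of_bounded (IsZLattice.isCompact_range_of_periodic P.lattice _
    a.continuous p).isBounded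
  refine ⟨H 0, (n 0).meromorphicOrderAt_eq_zero_iff.1 (o 0), fun z cf cg => ?_⟩
  refine tendsto_nhds_unique_of_eventuallyEq (l := 𝓝[≠] z) (cf.tendsto.mono_left nhdsWithin_le_nhds)
    ((cg.tendsto.const_mul _).mono_left nhdsWithin_le_nhds) ?_
  filter_upwards [e z, (meromorphicOrderAt_ne_top_iff_eventually_ne_zero (k.me z)).1
    (by rw [k.od]; simp)] with w b n
  rw [← c w, b, Pi.div_apply, div_mul_cancel₀ _ n]

/-- the indicator -/
def ind (p : Prop) : ℤ := if p then 1 else 0

theorem ind_pos {p : Prop} (h : p) : ind p = 1 := if_pos h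

theorem ind_neg {p : Prop} (h : ¬ p) : ind p = 0 := if_neg h

theorem el_wp (L : IsLat Λ) {s : ℂ} (h1 : s ∉ Λ) (h2 : 2 * s ∉ Λ) : El Λ (fun z => wp Λ z - wp Λ s)
    fun z => ind (z - s ∈ Λ) + ind (z + s ∈ Λ) - 2 * ind (z ∈ Λ) := by
  have me : ∀ z, MeromorphicAt (wp Λ) z := by
    obtain ⟨P, rfl⟩ := L
    exact P.meromorphic_weierstrassP
  refine ⟨fun z => (me z).sub (.const _ z), fun z => ?_, fun l m z => by
    rw [L.wp_congr (z := z + l) (w := z) (by simpa using m)]⟩
  by_cases z0 : z ∈ Λ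
  · have o : meromorphicOrderAt (wp Λ) z = -2 := by
      obtain ⟨P, rfl⟩ := L
      exact P.order_weierstrassP z z0
    rw [ind_pos z0, ind_neg fun k => h1 (mem_of_eq (sub_mem z0 k) (by ring)),
      ind_neg fun k => h1 (mem_of_eq (sub_mem k z0) (by ring))]
    have := meromorphicOrderAt_add_eq_left_of_lt (f₁ := wp Λ) (f₂ := fun _ => -wp Λ s) (x := z)
      (.const _ z) (o ▸ lt_of_lt_of_le (by decide) analyticAt_const.meromorphicOrderAt_nonneg)
    rw [o] at this
    exact (congrArg (meromorphicOrderAt · z) (funext fun w => sub_eq_add_neg _ _)).trans this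
  have an : AnalyticAt ℂ (fun z => wp Λ z - wp Λ s) z := (L.analyticAt_wp z0).sub analyticAt_const
  have one : 2 * z ∉ Λ → wp Λ z = wp Λ s →
      meromorphicOrderAt (fun z => wp Λ z - wp Λ s) z = (1 : ℤ) := fun a b => by
    rw [an.meromorphicOrderAt_eq, an.analyticOrderAt_eq_one_of_zero_deriv_ne_zero (sub_eq_zero.2 b) (by
      rw [((L.hasDerivAt_wp z0).sub_const _).deriv]
      exact mt (L.dwp_eq_zero z0).1 a)]
    rfl
  rw [ind_neg z0]
  by_cases a : z - s ∈ Λ
  · rw [ind_pos a, ind_neg fun k => h2 (mem_of_eq (sub_mem k a) (by ring))]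
    exact one (fun k => h2 (mem_of_eq (sub_mem k (add_mem a a)) (by ring))) (L.wp_congr a)
  by_cases b : z + s ∈ Λ
  · rw [ind_pos b, ind_neg a]
    exact one (fun k => h2 (mem_of_eq (sub_mem (add_mem b b) k) (by ring))) (L.wp_congr' b)
  rw [ind_neg a, ind_neg b]
  exact an.meromorphicNFAt.meromorphicOrderAt_eq_zero_iff.2 (sub_ne_zero.2 (L.wp_ne z0 h1 a b))

end Vale.Agent.P014X.Eu
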