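import Vale.Agent.P014X.St0
import Vale.Agent.P014X.Eu.El
import Vale.Agent.P004K.Hg.Un

/-! # P014X: the function `∏ (x - x T)`, its divisor and its norms (helper27) -/

set_option autoImplicit false
set_option linter.all false

open NumberField QuadraticAlgebra
open scoped Classical

noncomputable section

namespace Vale.Agent.P014X.Eu

open Vale.Agent.P022 (Qb GQ)
open P027H P027M.M
open P004M.TE (Pt ga)
open P004K (Un)

variable {A B : ℤ} (D : Cd A B)

/-- the complex embedding as a homomorphism -/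
def Jh : D.O →+* ℂ := (io : Qb →+* ℂ).comp ((algebraMap (𝓞 Qb) Qb).comp D.j)

theorem J_mul (x y : D.O) : D.J (x * y) = D.J x * D.J y := map_mul (Jh D) x y

theorem J_ne {x : D.O} (h : x ≠ 0) : D.J x ≠ 0 := fun e =>
  h (D.inj (RingOfIntegers.coe_injective (io_inj (e.trans (map_zero (Jh D)).symm))))

theorem J_mk (m n : ℤ) : D.J ⟨m, n⟩ = m + n * D.J ω := by
  have : (⟨m, n⟩ : D.O) = (m : D.O) + (n : D.O) * ω := by ext <;> simp
  rw [this]
  exact (map_add (Jh D) _ _).trans (by rw [map_mul, map_intCast, map_intCast]; rfl)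

theorem mem_L {z : ℂ} : z ∈ D.L ↔ ∃ x, z = D.Ω * D.J x := by
  rw [Cd.L, La, Submodule.mem_span_pair]
  refine ⟨fun ⟨m, n, e⟩ => ⟨⟨m, n⟩, ?_⟩, fun ⟨⟨m, n⟩, e⟩ => ⟨m, n, ?_⟩⟩
  · rw [J_mk, ← e, zsmul_eq_mul, zsmul_eq_mul]
    ring
  · rw [e, J_mk D m n, zsmul_eq_mul, zsmul_eq_mul]
    ring

theorem lat : IsLat D.L := by
  refine ⟨⟨D.Ω, D.Ω * D.J ω, ?_⟩, rfl⟩
  rw [LinearIndependent.pair_iff]
  intro s t e
  have e' : (s : ℂ) + t * D.J ω = 0 := mul_left_cancel₀ D.Ω0 (by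
    rw [Complex.real_smul, Complex.real_smul] at e
    linear_combination e)
  have i : (D.J ω).im ≠ 0 := D.im.ne'
  have a := congrArg Complex.im e'
  simp [i] at a
  simpa [a] using e'

theorem J_mem (e : D.O) : ∀ l ∈ D.L, D.J e * l ∈ D.L := fun l h => by
  obtain ⟨x, rfl⟩ := (mem_L D).1 h
  exact (mem_L D).2 ⟨e * x, by rw [J_mul]; ring⟩

theorem act_mul (α β : D.O) (Q : Pt A B) : D.act (α * β) Q = D.act α (D.act β Q) := by
  rw [map_mul]
  rfl

theorem act_comm (α β : D.O) (Q : Pt A B) : D.act α (D.act β Q) = D.act β (D.act α Q) := by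
  rw [← act_mul, mul_comm, act_mul]

theorem act_one (Q : Pt A B) : D.act 1 Q = Q := by
  rw [map_one]
  rfl

theorem act_add (α β : D.O) (Q : Pt A B) : D.act (α + β) Q = D.act α Q + D.act β Q := by
  rw [map_add]
  rfl

theorem ex_un (Q : Pt A B) : ∃ z, Un D.L z Q := (P004K.un A B _ (lat D) D.e2 D.e3).1 Q

/-- a parameter of the point -/
def zz (Q : Pt A B) : ℂ := (ex_un D Q).choose

theorem un_zz (Q : Pt A B) : Un D.L (zz D Q) Q := (ex_un D Q).choose_spec

variable {D} {z w : ℂ} {Q T : Pt A B} {α β γ : D.O}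

theorem un_add (h : Un D.L z Q) (k : Un D.L w T) : Un D.L (z + w) (Q + T) :=
  (((P004K.un A B _ (lat D) D.e2 D.e3).2.1 _ _ _ _) h k).1

theorem un_eq (h : Un D.L z Q) (k : Un D.L w T) : Q = T ↔ z - w ∈ D.L :=
  (((P004K.un A B _ (lat D) D.e2 D.e3).2.1 _ _ _ _) h k).2

theorem un_zero (h : Un D.L z Q) : Q = 0 ↔ z ∈ D.L := by
  rw [un_eq h (w := 0) ⟨fun _ => rfl, fun k => (k (zero_mem _)).elim⟩, sub_zero]

theorem un_act (α : D.O) (h : Un D.L z Q) : Un D.L (D.J α * z) (D.act α Q) := D.uact α z Q h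

theorem un_xc (h : Un D.L z Q) : io (xc Q) = wp D.L z := by
  by_cases m : z ∈ D.L
  · rw [h.1 m, (lat D).wp_mem m]
    exact map_zero io
  · obtain ⟨a, b, n, rfl, p, -⟩ := h.2 m
    exact p

theorem cnt (C : D.Cf) (h : α ≠ 0) (z : ℂ) :
    ∑ T ∈ D.tor α, ind (z - zz D T ∈ D.L) = ind (D.J α * z ∈ D.L) := by
  by_cases m : D.J α * z ∈ D.L
  · obtain ⟨x, e⟩ := (mem_L D).1 m
    have u := un_act x (D.utp α h)
    rw [show D.J x * (D.Ω / io (D.j α : Qb)) = z from mul_left_cancel₀ (J_ne D h) (by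
      rw [e, mul_left_comm, mul_comm D.Ω]
      exact congrArg _ (mul_div_cancel₀ _ (J_ne D h)))] at u
    rw [ind_pos m, Finset.sum_eq_single_of_mem _ ((C.gen α h _).2 ⟨x, rfl⟩)
      (fun T _ n => ind_neg fun k => n ((un_eq u (un_zz D T)).2 k).symm),
      ind_pos ((un_eq u (un_zz D _)).1 rfl)]
  · rw [ind_neg m]
    refine Finset.sum_eq_zero fun T k => ind_neg fun n => m ?_
    exact mem_of_eq (add_mem (J_mem D α _ n) ((un_zero (un_act α (un_zz D T))).1 ((C.tr α h T).1 k)))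
      (by ring)

theorem cnt' (C : D.Cf) (h : α ≠ 0) (z : ℂ) :
    ∑ T ∈ D.tor α, ind (z + zz D T ∈ D.L) = ind (D.J α * z ∈ D.L) := by
  have := cnt C h (-z)
  simp only [← neg_add', mul_neg, neg_mem_iff] at this
  exact this

theorem zero_mem_tor (C : D.Cf) (h : α ≠ 0) : 0 ∈ D.tor α := (C.tr α h 0).2 (map_zero _)

theorem perm (C : D.Cf) (h : β ≠ 0) (k : IsCoprime α β) :
    Set.BijOn (D.act α) (D.tor β) (D.tor β) := by
  obtain ⟨u, v, e⟩ := k
  have m : ∀ γ, Set.MapsTo (D.act γ) (D.tor β) (D.tor β) := fun γ T n =>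
    (C.tr β h _).2 (by rw [act_comm, (C.tr β h _).1 n, map_zero])
  have i : ∀ T ∈ D.tor β, D.act u (D.act α T) = T := fun T n => by
    conv_rhs => rw [← act_one D T, ← e, act_add, act_mul, act_mul, (C.tr β h _).1 n, map_zero,
      add_zero]
  exact Set.InvOn.bijOn ⟨i, fun T n => by rw [act_comm, i T n]⟩ (m α) (m u)

theorem prod_perm (C : D.Cf) (h : β ≠ 0) (k : IsCoprime α β) {M : Type} [CommMonoid M]
    (φ : Pt A B → M) : ∏ T ∈ D.tor β, φ (D.act α T) = ∏ T ∈ D.tor β, φ T :=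
  let b := perm C h k
  Finset.prod_nbij _ b.1 b.2.1 b.2.2 fun _ _ => rfl

variable (D) in
/-- `∏ (℘ - ℘ t)` -/
def fa (α : D.O) (z : ℂ) : ℂ := ∏ T ∈ (D.tor α).erase 0, (wp D.L z - wp D.L (zz D T))

variable (D) in
/-- `∏ (x - x T)` -/
def fq (α : D.O) (Q : Pt A B) : Qb := ∏ T ∈ (D.tor α).erase 0, (xc Q - xc T)

theorem un_fq (α : D.O) (h : Un D.L z Q) : io (fq D α Q) = fa D α z := by
  rw [fq, fa, map_prod]
  exact Finset.prod_congr rfl fun T _ => by rw [map_sub, un_xc h, un_xc (un_zz D T)]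

theorem fa_an (α : D.O) (h : z ∉ D.L) : AnalyticAt ℂ (fa D α) z :=
  Finset.analyticAt_fun_prod _ fun T _ => ((lat D).analyticAt_wp h).sub analyticAt_const

theorem fq_ne (C : D.Cf) (h : α ≠ 0) (k : D.act α Q ≠ 0) : fq D α Q ≠ 0 := by
  rw [← map_ne_zero io, un_fq α (un_zz D Q)]
  refine Finset.prod_ne_zero_iff.2 fun T m => sub_ne_zero.2 ?_
  obtain ⟨n, m⟩ := Finset.mem_erase.1 m
  have t := (C.tr α h T).1 m
  refine (lat D).wp_ne (fun e => k ?_) (mt (un_zero (un_zz D T)).2 n) (fun e => k ?_) fun e => k ?_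
  · rw [(un_zero (un_zz D Q)).2 e, map_zero]
  · rw [(un_eq (un_zz D Q) (un_zz D T)).2 e, t]
  · rw [eq_neg_of_add_eq_zero_left ((un_zero (un_add (un_zz D Q) (un_zz D T))).2 e), map_neg, t,
      neg_zero]

theorem el_fa (C : D.Cf) (h : α ≠ 0) (k : IsCoprime α 2) : El D.L (fa D α)
    fun z => 2 * ind (D.J α * z ∈ D.L) - 2 * D.nm α * ind (z ∈ D.L) := by
  refine (El.prod _ fun T m => el_wp (lat D) (s := zz D T) ?_ ?_).congr fun z => ?_
  · exact mt (un_zero (un_zz D T)).2 (Finset.mem_erase.1 m).1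
  · obtain ⟨n, m⟩ := Finset.mem_erase.1 m
    obtain ⟨u, v, e⟩ := k
    refine fun a => n ?_
    have t : D.act 2 T = 0 := by
      rw [← one_add_one_eq_two, act_add, act_one, un_zero (un_add (un_zz D T) (un_zz D T))]
      rwa [← two_mul]
    rw [← act_one D T, ← e, act_add, act_mul, act_mul, (C.tr α h _).1 m, t, map_zero, map_zero,
      add_zero]
  · have z0 : zz D 0 ∈ D.L := (un_zero (un_zz D 0)).1 rfl
    have a := cnt C h z
    have b := cnt' C h z
    have c := C.crd α h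
    rw [← Finset.add_sum_erase _ _ (zero_mem_tor C h)] at a b
    rw [← Finset.card_erase_add_one (zero_mem_tor C h)] at c
    rw [sub_eq_add_neg, add_mem_cancel_right (neg_mem z0)] at a
    rw [add_mem_cancel_right z0] at b
    rw [Finset.sum_sub_distrib, Finset.sum_add_distrib, Finset.sum_const, ← c, nsmul_eq_mul]
    push_cast
    simp only [sub_eq_add_neg] at a ⊢
    linear_combination a + b

theorem mul_ne (h : α ≠ 0) (k : β ≠ 0) : α * β ≠ 0 := fun e =>
  mul_ne_zero (J_ne D h) (J_ne D k) (by rw [← J_mul, e]; exact map_zero (Jh D))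

theorem two_ne : (2 : D.O) ≠ 0 := fun e => by
  simpa using (map_ofNat (Jh D) 2).symm.trans ((congrArg (Jh D) e).trans (map_zero _))

theorem ex_pt (C : D.Cf) (h : α ≠ 0) : ∃ Q, D.act α Q ≠ 0 := by
  refine ⟨D.tp (α * 2), fun e => ?_⟩
  obtain ⟨x, e⟩ := (C.ker _ (mul_ne h two_ne) _).1 e
  have a : (1 : D.O) = 2 * x := by
    by_contra n
    exact mul_ne h (sub_ne_zero.2 n) (by linear_combination e)
  have := congrArg QuadraticAlgebra.im a
  have := congrArg QuadraticAlgebra.re a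
  rw [two_mul] at this
  simp at this
  omega

theorem desc {F G : Pt A B → Qb} (C : D.Cf) (h : α ≠ 0) {c : ℂ} (c0 : c ≠ 0)
    (k : ∀ Q, D.act α Q ≠ 0 → G Q ≠ 0 ∧ io (F Q) = c * io (G Q)) :
    ∃ c ≠ 0, ∀ Q, D.act α Q ≠ 0 → F Q = c * G Q := by
  obtain ⟨R, r⟩ := ex_pt C h
  have e : io (F R / G R) = c := by
    rw [map_div₀, (k R r).2, mul_div_cancel_right₀ _ ((map_ne_zero io).2 (k R r).1)]
  exact ⟨F R / G R, fun n => c0 (by rw [← e, n, map_zero]), fun Q q => io_inj (by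
    rw [map_mul, e, (k Q q).2])⟩

theorem ne_l (k : D.act (α * β) Q ≠ 0) : D.act α Q ≠ 0 := fun e =>
  k (by rw [mul_comm, act_mul, e, map_zero])

theorem ne_r (k : D.act (α * β) Q ≠ 0) : D.act β Q ≠ 0 := fun e => k (by rw [act_mul, e, map_zero])

theorem ne_0 (k : D.act α Q ≠ 0) : Q ≠ 0 := fun e => k (by rw [e, map_zero])

theorem ne_add (C : D.Cf) (h : β ≠ 0) (m : T ∈ D.tor β) (k : D.act (α * β) Q ≠ 0) :
    D.act α (Q + T) ≠ 0 := fun e => k (by
  have := congrArg (D.act β) e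
  rwa [act_comm, map_add, (C.tr β h T).1 m, add_zero, map_zero, ← act_mul] at this)

theorem fa_ct (α : D.O) {c t : ℂ} (h : c * z + t ∉ D.L) :
    ContinuousAt (fun z => fa D α (c * z + t)) z :=
  ContinuousAt.comp (f := fun z => c * z + t) (fa_an α h).continuousAt (by fun_prop)

/-- the norm of `fq α` is a constant multiple of `fq α ∘ β` -/
theorem nrm (C : D.Cf) (h : α ≠ 0) (k : IsCoprime α 2) (h' : β ≠ 0) (k' : IsCoprime α β) :
    ∃ c ≠ 0, ∀ Q, D.act (α * β) Q ≠ 0 →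
      ∏ T ∈ D.tor β, fq D α (Q + T) = c * fq D α (D.act β Q) := by
  have E := el_fa C h k
  obtain ⟨c, c0, e⟩ := ((El.prod (D.tor β) fun T _ =>
    E.aff one_ne_zero (fun l m => by rwa [one_mul]) (zz D T)).congr fun z => by
      have a := cnt' C h' (D.J α * z)
      have b := cnt' C h' z
      have p := perm C h' k'
      rw [← Finset.sum_nbij (f := fun T => ind (D.J α * (z + zz D T) ∈ D.L)) _ p.1 p.2.1 p.2.2
        fun T _ => by
          have := (un_eq (un_act α (un_zz D T)) (un_zz D _)).1 rfl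
          rw [← add_mem_cancel_right this (y := D.J α * z + zz D (D.act α T))]
          congr 2
          ring] at a
      simp only [one_mul, add_zero, Finset.sum_sub_distrib, ← Finset.mul_sum]
      rw [a, b, mul_left_comm (D.J β)]).liou (lat D) (E.aff (J_ne D h') (J_mem D β) 0)
  refine desc C (mul_ne h h') c0 fun Q q => ⟨fq_ne C h (by rwa [← act_mul]), ?_⟩
  have u := un_zz D Q
  rw [map_prod, un_fq α (un_act β u), ← add_zero (D.J β * _), ← e]
  · exact Finset.prod_congr rfl fun T _ => by rw [un_fq α (un_add u (un_zz D T)), one_mul]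
  · refine tendsto_finsetProd _ fun T m => fa_ct α ?_
    rw [one_mul, ← un_zero (un_add u (un_zz D T))]
    exact ne_0 (ne_add C h' m q)
  · refine fa_ct α ?_
    rw [add_zero, ← un_zero (un_act β u)]
    exact ne_r q

/-- the smoothing relation up to a constant -/
theorem smc (C : D.Cf) (h : α ≠ 0) (k : IsCoprime α 2) (h' : β ≠ 0) (k' : IsCoprime β 2) :
    ∃ c ≠ 0, ∀ Q, D.act (α * β) Q ≠ 0 → fq D α (D.act β Q) * fq D β Q ^ D.nm α =
      c * (fq D β (D.act α Q) * fq D α Q ^ D.nm β) := by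
  have E := el_fa C h k
  have E' := el_fa C h' k'
  obtain ⟨c, c0, e⟩ := (((E.aff (J_ne D h') (J_mem D β) 0).mul (E'.pow (D.nm α))).congr fun z => by
    rw [add_zero, add_zero, mul_left_comm (D.J α)]
    ring).liou (lat D) ((E'.aff (J_ne D h) (J_mem D α) 0).mul (E.pow (D.nm β)))
  refine desc C (mul_ne h h') c0 fun Q q => ⟨mul_ne_zero (fq_ne C h' (by rwa [act_comm, ← act_mul]))
    (pow_ne_zero _ (fq_ne C h (ne_l q))), ?_⟩
  have u := un_zz D Q
  have n := mt (un_zero u).2 (ne_0 q)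
  rw [map_mul, map_mul, map_pow, map_pow, un_fq α (un_act β u), un_fq β (un_act α u), un_fq α u,
    un_fq β u, ← add_zero (D.J β * _), ← add_zero (D.J α * _), ← e]
  · refine (fa_ct α ?_).mul ((fa_an β n).continuousAt.pow _)
    rw [add_zero, ← un_zero (un_act β u)]
    exact ne_r q
  · refine (fa_ct β ?_).mul ((fa_an α n).continuousAt.pow _)
    rw [add_zero, ← un_zero (un_act α u)]
    exact ne_l q

end Vale.Agent.P014X.Eu
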