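import Vale.Agent.P014X.St0
import Vale.Agent.P022K.G2.Tam
import Vale.Agent.P022D.Sel.Unitx
import Vale.Agent.P022E.GW.Hyp

/-! # P014X: universal norms from unramified towers are units -/

set_option autoImplicit false
set_option linter.all false

open NumberField IsDedekindDomain
open scoped Classical

noncomputable section

namespace Vale.Agent.P014X.Ev

open P022 P022.C P022.H916 P022K.G2
open P027M.S (Inert)
open P022E.GW (Ov)

/-- a family of representatives of `H / H'` -/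
def Tj (H H' : Subgroup GQ) {J : Type} (s : J → GQ) : Prop :=
  (∀ i, s i ∈ H) ∧ ∀ g ∈ H, ∃! i, (s i)⁻¹ * g ∈ H'

theorem tj {H H' : Subgroup GQ} {T : Finset GQ} (h : Cd.Tv H H' T) : Tj H H' fun i : T => i.1 :=
  ⟨fun i => h.1 _ i.2, fun g m => let ⟨s, a, b⟩ := h.2 g m
    ⟨⟨s, a.1⟩, a.2, fun i k => Subtype.ext (b _ ⟨i.2, k⟩)⟩⟩

theorem dvd_sum {G : Type} [Group G] [Fintype G] (S : Subgroup G) (f : G → ℤ)
    (h : ∀ σ, ∀ s ∈ S, f (σ * s) = f σ) : (Nat.card S : ℤ) ∣ ∑ σ, f σ := by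
  rw [← Finset.sum_fiberwise Finset.univ fun σ : G => (σ : G ⧸ S)]
  refine Finset.dvd_sum fun q _ => ?_
  obtain ⟨a, rfl⟩ := QuotientGroup.mk_surjective q
  have : Fintype S := Fintype.ofFinite S
  rw [← Finset.sum_bij (s := (Finset.univ : Finset S)) (f := fun _ => f a) (fun s _ => a * s)
    (fun s _ => by simp) (fun s _ t _ e => Subtype.ext (mul_left_cancel e))
    (fun σ k => ⟨⟨a⁻¹ * σ, QuotientGroup.eq.1 (Finset.mem_filter.1 k).2.symm⟩, Finset.mem_univ _,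
      by simp⟩) fun s _ => (h a s s.2).symm]
  simp

theorem unit_of {l : ℕ} {P : Ideal (𝓞 Qb)} (o : Ov l P) {H : Subgroup GQ}
    (oH : IsOpen (H : Set GQ)) {x : Qb} (x0 : x ≠ 0) (fx : ∀ g ∈ H, g x = x) {φ : GQ} (m : φ ∈ H)
    (d : ∀ z : 𝓞 Qb, φ • z ∈ P ↔ z ∈ P)
    (h : ∀ r : ℕ, r ≠ 0 → ∃ (H' : Subgroup GQ) (y : Qb), IsOpen (H' : Set GQ) ∧ H' ≤ H ∧
      (∀ g ∈ H, ∀ u ∈ H', g * u * g⁻¹ ∈ H') ∧ (∀ i ∈ H, Inert P i → i ∈ H') ∧ φ ^ r ∉ H' ∧
      (∀ g ∈ H', g y = y) ∧ ∀ (J : Type) [Fintype J] (s : J → GQ), Tj H H' s → ∏ i, s i y = x) :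
    Cd.Uo P x := by
  obtain ⟨K, _, _, j, rfl⟩ := P022E.GW.Hy.ex_fld oH
  obtain ⟨x, rfl⟩ := fixed j fun g => fx g g.2
  have z : ordv (blw j o) x = 0 := by_contra fun n => by
    obtain ⟨U, y, oU, le, nr, ur, nm, fy, e⟩ := h _ (Int.natAbs_ne_zero.2 n)
    obtain ⟨M, _, _, _, _, jM, ρ, D, hM, k⟩ := exists_fld j U oU le nr
    obtain ⟨y, rfl⟩ := fixed jM fun g => fy g (hM ▸ g.2)
    choose s hs using D.surj
    have e1 := e _ (fun σ => s σ⁻¹) ⟨fun σ => (s _).2, fun g a => ⟨(ρ ⟨g, a⟩)⁻¹,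
      (k ((s _)⁻¹ * ⟨g, a⟩)).1 (by simp [hs]), fun σ b => by
        have := (k ((s _)⁻¹ * ⟨g, a⟩)).2 b
        rwa [map_mul, map_inv, hs, inv_inv, mul_eq_one_iff_eq_inv] at this⟩⟩
    simp only [D.act, hs, ← map_prod, ← D.comp, jM.injective.eq_iff] at e1
    have y0 : ∀ σ : M ≃ₐ[K] M, σ⁻¹ y ≠ 0 := fun σ => (map_ne_zero _).2 fun c => x0 (by
      rw [← D.comp, ← e1, c]
      simp)
    have a := H269.UNRV K M (blw j o) (blw jM o) (D.below_comap P)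
      (fun g hg => D.inertia_eq_bot o.2.1 (fun g hg => (k g).2 (ur g g.2 hg)) hg) x
    have b : P022D.Sel.Ux.c (ρ ⟨φ, m⟩) (blw jM o) = blw jM o :=
      HeightOneSpectrum.ext (Ideal.ext fun t => by
        show RingOfIntegers.mapRingHom jM (ρ ⟨φ, m⟩ • t) ∈ P ↔ RingOfIntegers.mapRingHom jM t ∈ P
        rw [← D.smul_map, d])
    have c : ∀ n : ℕ, P022D.Sel.Ux.c (ρ ⟨φ, m⟩ ^ n) (blw jM o) = blw jM o := fun n => by
      induction n with
      | zero => exact P022D.Sel.Ux.c_one _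
      | succ n ih => rw [pow_succ, P022D.Sel.Ux.c_mul, ih, b]
    have := dvd_sum (Subgroup.zpowers (ρ ⟨φ, m⟩)) (fun σ => ordv (blw jM o) (σ⁻¹ y)) fun σ t b => by
      obtain ⟨n, e⟩ := mem_powers_iff_mem_zpowers.2 (inv_mem b)
      simp only [mul_inv_rev, AlgEquiv.mul_apply, ← e, P022D.Sel.Ux.ord_c _ _ (σ⁻¹ y), c]
    rw [← P022D.Sel.Ux.ord_prod _ _ _ y0, e1, a, Nat.card_zpowers, Int.natCast_dvd,
      orderOf_dvd_iff_pow_eq_one, ← map_pow, k] at this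
    exact nm this
  have hu : (blw j o).valuation K x = 1 := by
    rw [← WithZero.exp_log ((Valuation.ne_zero_iff ((blw j o).valuation K)).2
      ((map_ne_zero j).1 x0)), neg_eq_zero.1 z,
      WithZero.exp_zero]
  obtain ⟨n, t, e⟩ := (blw j o).exists_primeCompl_mul_eq_of_integer _ hu.le
  have ht : t.1 ∉ (blw j o).asIdeal := t.2
  have hn : n ∉ (blw j o).asIdeal := by
    rw [← (blw j o).valuation_eq_one_iff_notMem (K := K)] at ht ⊢
    rw [← e, map_mul, hu, ht, one_mul]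
  exact ⟨RingOfIntegers.mapRingHom j t.1, RingOfIntegers.mapRingHom j n, ht, hn,
    (mul_comm _ _).trans ((map_mul j _ _).symm.trans (congrArg j e))⟩

end Vale.Agent.P014X.Ev
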